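import Vale.Agent.P154.Neg.Grid.Runs.Base
import Vale.Agent.P154.Neg.Grid.Runs.E6.Agg
import Vale.Agent.P154.Neg.Grid.Runs.GG.Agg
import Vale.Agent.P154.Neg.Grid.Runs.E6.PoiStates
import Vale.Agent.P154.Neg.Grid.RunPoi

/-!
# P154: later levels of the run at the edge -14/31
-/

namespace Vale.Agent.P154.Neg.Grid.Runs.E6.Poi

def chunk6 : poiOk (mkPar 14 31) qs g1 g2 GG.g4 5 st6 st7 = true := by decide +kernel

def chunk7 : poiOk (mkPar 14 31) qs g1 g2 GG.g4 5 st7 st8 = true := by decide +kernel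

def chunk8 : poiOk (mkPar 14 31) qs g1 g2 GG.g4 5 st8 st9 = true := by decide +kernel

def chunk9 : poiOk (mkPar 14 31) qs g1 g2 GG.g4 5 st9 st10 = true := by decide +kernel

def chunk10 : poiOk (mkPar 14 31) qs g1 g2 GG.g4 2 st10 st11 = true := by decide +kernel

def end_ok : poiEndOk (mkPar 14 31) qs 991 200 g1 g2 GG.g4 st11 9 1000 = true := by decide +kernel

end Vale.Agent.P154.Neg.Grid.Runs.E6.Poi
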